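import Vale.Agent.P158N.Main

namespace Vale.Agent.Results.P158.NoBi

open MeasureTheory Vale.Agent.P158N

theorem result (G : Measure ℝ) [IsProbabilityMeasure G] (hG : ∀ x : ℝ, G {x} = 0)
    (h0 : G (Set.Iio 0) = 0) :
    ∀ᵐ w ∂(Measure.infinitePi fun _ : E => G),
      ¬ ∃ v : ℤ → V, Function.Injective v ∧ (∀ k, Adj (v k) (v (k + 1))) ∧
        ∀ i j, i < j → cost w v i j = T w (v i) (v j) := by
  haveI : NullSingletonClass G := ⟨hG⟩
  filter_upwards [main h0, ae_nice h0] with w hw hn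
  rintro ⟨v, -, h1, h2⟩
  refine hw v fun i j hij => ⟨hij, fun k _ _ => h1 k, ?_⟩
  rcases hij.eq_or_lt with rfl | h
  · rw [cost_self, T_self hn.nn]
  · exact h2 i j h

end Vale.Agent.Results.P158.NoBi
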